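import Vale.Agent.P073Z.Sk3
import Vale.Agent.P073Z.RCX
import Vale.Agent.P073Z.A7a.Cvx

/-!
# General lemmas for the selection of the good simplices
-/

open Set Metric Topology Filter MeasureTheory
open scoped ENNReal NNReal

namespace P073

namespace Gd

open Vale.Agent.P073.HB

theorem exists_interp {t : Finset E3} (ht : AffineIndependent ℝ ((↑) : t → E3)) (f : E3 → E3) :
    ∃ A : E3 →ᵃ[ℝ] E3, ∀ v ∈ t, A v = f v := by
  classical
  obtain ⟨u, htu, hu, htop⟩ := exists_subset_affineIndependent_affineSpan_eq_top (k := ℝ)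
    (V := E3) (s := (t : Set E3)) ht
  have := (finite_set_of_fin_dim_affineIndependent ℝ hu).fintype
  let b : AffineBasis u ℝ E3 := ⟨(↑), hu, by rw [Subtype.range_coe, htop]⟩
  refine ⟨(Fintype.linearCombination ℝ fun i : u => f i).toAffineMap.comp b.coords,
    fun v hv => ?_⟩
  have h1 : ∀ i, b.coords v i = if i = ⟨v, htu hv⟩ then 1 else 0 := fun i =>
    b.coord_apply i ⟨v, htu hv⟩
  simp [Fintype.linearCombination_apply, h1]

theorem affine_sum (A : E3 →ᵃ[ℝ] E3) (t : Finset E3) {w : E3 → ℝ} (h : ∑ v ∈ t, w v = 1) :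
    A (∑ v ∈ t, w v • v) = ∑ v ∈ t, w v • A v := by
  have h1 := t.map_affineCombination id w h A
  rwa [Finset.affineCombination_eq_linear_combination _ _ _ h,
    Finset.affineCombination_eq_linear_combination _ _ _ h] at h1

theorem goodSeg_smul {f : E3 → E3} {F : E3 → (E3 →L[ℝ] E3)} {x v : E3} (h : GoodSeg f F x v)
    {δ : ℝ} (hδ : δ ∈ Icc (0 : ℝ) 1) : GoodSeg f F x (δ • v) := by
  have e : (fun s : ℝ => F (x + s • δ • v) (δ • v)) = fun s => δ • F (x + (δ * s) • v) v := by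
    funext s
    rw [map_smul, smul_smul, mul_comm]
  refine ⟨?_, fun t ht => ?_⟩
  · change IntervalIntegrable (fun s : ℝ => F (x + s • δ • v) (δ • v)) volume 0 1
    rw [e]
    rcases hδ.1.eq_or_lt with rfl | h0
    · simp
    · have h1 := (h.1.mono_set (c := 0) (d := δ) (by
        rw [uIcc_of_le zero_le_one]
        exact uIcc_subset_Icc ⟨le_rfl, zero_le_one⟩ hδ)).comp_mul_left (c := δ)
      rw [zero_div, div_self h0.ne'] at h1
      exact h1.smul δ
  · change _ = f x + ∫ s in (0 : ℝ)..t, F (x + s • δ • v) (δ • v)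
    rw [e, intervalIntegral.integral_smul,
      intervalIntegral.smul_integral_comp_mul_left fun s => F (x + s • v) v, mul_zero, smul_smul,
      mul_comm]
    exact h.2 _ ⟨mul_nonneg hδ.1 ht.1, mul_le_one₀ hδ.2 ht.1 ht.2⟩

/-- a curve of finite variation is covered by few small balls -/
theorem cover_curve (γ : ℝ → E3) {ρ : ℝ} (hρ : 0 < ρ) (hl : eVariationOn γ (Icc 0 1) ≠ ⊤) :
    ∃ Y : Finset E3, (Y.card : ℝ≥0∞) ≤ ENNReal.ofReal ρ⁻¹ * eVariationOn γ (Icc 0 1) + 1 ∧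
      ∀ t ∈ Icc (0 : ℝ) 1, ∃ y ∈ Y, dist (γ t) y ≤ ρ := by
  classical
  have hb : BoundedVariationOn γ (Icc 0 1) := hl
  have hv := hb.locallyBoundedVariationOn
  have h0 : (0 : ℝ) ∈ Icc (0 : ℝ) 1 := ⟨le_rfl, zero_le_one⟩
  let φ := variationOnFromTo γ (Icc 0 1) 0
  have h1 : ∀ t ∈ Icc (0 : ℝ) 1, 0 ≤ φ t ∧ φ t ≤ (eVariationOn γ (Icc 0 1)).toReal := fun t ht =>
    ⟨variationOnFromTo.nonneg_of_le _ _ ht.1, by
      simp only [φ, variationOnFromTo.eq_of_le _ _ ht.1]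
      exact ENNReal.toReal_mono hl (eVariationOn.mono _ inter_subset_left)⟩
  have h2 : ∀ s ∈ Icc (0 : ℝ) 1, ∀ t ∈ Icc (0 : ℝ) 1, s ≤ t → dist (γ s) (γ t) ≤ φ t - φ s := by
    intro s hs t ht hst
    simp only [φ]
    rw [variationOnFromTo.sub_right hv h0 ht hs, variationOnFromTo.eq_of_le _ _ hst]
    exact (hb.mono inter_subset_left).dist_le ⟨hs, le_rfl, hst⟩ ⟨ht, hst, le_rfl⟩
  let u : ℕ → ℝ := fun k => Classical.epsilon fun t => t ∈ Icc (0 : ℝ) 1 ∧ ⌊φ t / ρ⌋₊ = k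
  refine ⟨(Finset.range (⌊(eVariationOn γ (Icc 0 1)).toReal / ρ⌋₊ + 1)).image fun k => γ (u k),
    ?_, fun t ht => ?_⟩
  · refine (Nat.cast_le.2 Finset.card_image_le).trans ?_
    rw [Finset.card_range, Nat.cast_succ]
    gcongr
    rw [← ENNReal.ofReal_natCast, ← ENNReal.ofReal_toReal hl, ← ENNReal.ofReal_mul (by positivity),
      ENNReal.toReal_ofReal ENNReal.toReal_nonneg, ← div_eq_inv_mul]
    exact ENNReal.ofReal_le_ofReal (Nat.floor_le (by positivity))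
  · obtain ⟨h3, h4⟩ : u ⌊φ t / ρ⌋₊ ∈ Icc (0 : ℝ) 1 ∧ ⌊φ (u ⌊φ t / ρ⌋₊) / ρ⌋₊ = ⌊φ t / ρ⌋₊ :=
      Classical.epsilon_spec (p := fun s => s ∈ Icc (0 : ℝ) 1 ∧ ⌊φ s / ρ⌋₊ = ⌊φ t / ρ⌋₊)
        ⟨t, ht, rfl⟩
    refine ⟨_, Finset.mem_image_of_mem _ (Finset.mem_range_succ_iff.2
      (Nat.floor_mono (div_le_div_of_nonneg_right (h1 t ht).2 hρ.le))), ?_⟩
    generalize u ⌊φ t / ρ⌋₊ = s at h3 h4
    have k : ∀ {a b : ℝ}, 0 ≤ a → ⌊a / ρ⌋₊ = ⌊b / ρ⌋₊ → b - a ≤ ρ := fun {a b} ha e => by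
      have k1 := Nat.floor_le (div_nonneg ha hρ.le)
      have k2 := Nat.lt_floor_add_one (b / ρ)
      rw [← e, div_lt_iff₀ hρ] at k2
      rw [le_div_iff₀ hρ] at k1
      linarith
    rcases le_total s t with h5 | h5
    · rw [dist_comm]
      exact (h2 s h3 t ht h5).trans (k (h1 s h3).1 h4)
    · exact (h2 t ht s h3 h5).trans (k (h1 t ht).1 h4.symm)

theorem enc_sum {ι X : Type} (s : Finset ι) {W : ι → Set X} {c : ι → ℝ≥0∞}
    (h : ∀ i ∈ s, ((W i).encard : ℝ≥0∞) ≤ c i) :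
    ((⋃ i ∈ s, W i).encard : ℝ≥0∞) ≤ ∑ i ∈ s, c i := by
  classical
  induction s using Finset.induction_on with
  | empty => simp
  | insert a s ha ih =>
    rw [Finset.set_biUnion_insert, Finset.sum_insert ha]
    refine (ENat.toENNReal_le.2 (encard_union_le _ _)).trans ?_
    rw [ENat.toENNReal_add]
    exact add_le_add (h a (Finset.mem_insert_self _ _))
      (ih fun i hi => h i (Finset.mem_insert_of_mem hi))

theorem enc_mul {ι X : Type} (s : Set ι) {W : ι → Set X} {c : ℝ≥0∞}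
    (h : ∀ i ∈ s, ((W i).encard : ℝ≥0∞) ≤ c) :
    ((⋃ i ∈ s, W i).encard : ℝ≥0∞) ≤ c * s.encard := by
  rcases s.finite_or_infinite with hs | hs
  · lift s to Finset ι using hs
    refine (enc_sum s (c := fun _ => c) h).trans ?_
    rw [Finset.sum_const, nsmul_eq_mul, mul_comm, encard_coe_eq_coe_finsetCard]
    rfl
  · rcases eq_or_ne c 0 with rfl | hc
    · have h1 : ⋃ i ∈ s, W i = ∅ := by
        simp only [iUnion_eq_empty]
        exact fun i hi => by simpa using h i hi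
      simp [h1]
    · rw [hs.encard_eq, ENat.toENNReal_top, ENNReal.mul_top hc]
      exact le_top

theorem enc_mono {X : Type} {s t : Set X} (h : s ⊆ t) : (s.encard : ℝ≥0∞) ≤ t.encard :=
  ENat.toENNReal_le.2 (encard_le_encard h)

theorem enc_union {X : Type} (s t : Set X) : ((s ∪ t).encard : ℝ≥0∞) ≤ s.encard + t.encard := by
  rw [← ENat.toENNReal_add]
  exact ENat.toENNReal_le.2 (encard_union_le _ _)

/-- points of the integer lattice -/
def Int3 (v : E3) : Prop := ∀ i, ∃ k : ℤ, v i = k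

theorem exists_lattice (y : E3) (R : ℕ) : ∃ s : Finset E3, s.card ≤ (2 * R + 1) ^ 3 ∧
    ∀ v, Int3 v → ‖v - y‖ ≤ R → v ∈ s := by
  classical
  refine ⟨(Fintype.piFinset fun i => Finset.Icc (⌈y i⌉ - R) (⌈y i⌉ + R)).image
    fun z i => (z i : ℝ), Finset.card_image_le.trans ?_, fun v hv h => ?_⟩
  · rw [Fintype.card_piFinset]
    have h1 : ∀ i, (Finset.Icc (⌈y i⌉ - R) (⌈y i⌉ + R)).card = 2 * R + 1 := fun i => by
      rw [Int.card_Icc]
      omega
    simp [h1]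
  · choose z hz using hv
    refine Finset.mem_image.2 ⟨z, Fintype.mem_piFinset.2 fun i => ?_, (funext hz).symm⟩
    have h1 := abs_le.1 ((norm_le_pi_norm (v - y) i).trans h)
    rw [Pi.sub_apply, hz] at h1
    have h2 : ⌈y i⌉ ≤ z i + R := Int.ceil_le.2 (by push_cast; linarith [h1.1])
    have h3 : (z i : ℝ) ≤ (⌈y i⌉ + R : ℤ) := by push_cast; linarith [h1.2, Int.le_ceil (y i)]
    exact Finset.mem_Icc.2 ⟨by omega, Int.cast_le.1 h3⟩

theorem sum_lintegral_le (K : RCx E3) (s : Finset K.ι) (hs : ∀ e ∈ s, K.dim e = 1)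
    (Y : Set E3) (g : E3 → ℝ≥0∞) :
    ∑ e ∈ s, ∫⁻ x in K.cell e ∩ Y, g x ∂(μH[1]) ≤ ∫⁻ x in Y, g x ∂(μH[1]) := by
  have := Measure.nullSingletonClass_hausdorff E3 (d := 1) one_pos
  have h1 : ∀ e ∈ s, ∫⁻ x in K.cell e ∩ Y, g x ∂(μH[1]) =
      ∫⁻ x in K.cell e \ K.bd e, g x ∂((μH[1] : Measure E3).restrict Y) := by
    intro e he
    obtain ⟨p, q, -, -, -, h2, -⟩ := K.exists_edge (hs e he)
    rw [← Measure.restrict_restrict (K.isClosed_cell e).measurableSet]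
    refine setLIntegral_congr (sdiff_null_ae_eq_self ?_).symm
    rw [h2]
    exact (toFinite _).measure_zero _
  rw [Finset.sum_congr rfl h1, ← lintegral_biUnion_finset (fun e _ e' _ h => K.disj e e' h)
    fun e _ => (K.isClosed_cell e).measurableSet.diff (K.isClosed_bd e).measurableSet]
  exact setLIntegral_le_lintegral _ _

theorem hat_zero : hat 0 = 1 := by simp [hat]

theorem hat_mem (ζ : E3) : 0 ≤ hat ζ ∧ hat ζ ≤ 1 :=
  ⟨le_max_left _ _, max_le zero_le_one (by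
    linarith [min_le_left 0 (min (ζ 0) (min (ζ 1) (ζ 2))),
      le_max_left 0 (max (ζ 0) (max (ζ 1) (ζ 2)))])⟩

theorem edge_ends {K : RCx E3} (hK : K.Cvx) {e : K.ι} (he : K.dim e = 1) {x y : E3}
    (h : K.cell e = segment ℝ x y) : x ≠ y ∧ K.bd e = {x, y} := by
  have h1 : x ≠ y := by
    rintro rfl
    have h2 := (hK e).2.2
    rw [h, he, segment_same, vectorSpan_singleton, finrank_bot] at h2
    exact one_ne_zero h2
  exact ⟨h1, by rw [(hK e).2.1, h, intrinsicFrontier_segment h1]⟩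

end Gd

end P073
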