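import Vale.Agent.P073Z.GOOD.Str

/-!
# Counting the bad vertices
-/

open Set Metric Topology Filter MeasureTheory
open scoped ENNReal NNReal

namespace P073

namespace Gd

open Vale.Agent.P073.HB

variable {Ω : Set E3} {P : Par} {M₀ : ℝ≥0} {Mt : Ty → ℕ → ℝ≥0} {S : Ty → ℕ → Set E3}
  {f : E3 → E3} {F : E3 → (E3 →L[ℝ] E3)} {τ : Fin P.N → ℝ} {β d : ℝ} {θ : ℕ → ℝ}

/-- the packing constant -/
def CP (b : ℕ) : ℕ := (2 * (16 * b ^ 3) + 1) ^ 3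

/-- the lattice points whose images are close to the image of `X` -/
def W (P : Par) (f : E3 → E3) (j : Fin P.N) (X : Set E3) : Set E3 :=
  {v | (v ∈ P.Fine j ∧ v ∈ P.K j ∧ Int3 (zt P j v)) ∧
    ∃ x ∈ X, dist (f v) (f x) ≤ 3 * (((P.T j).b : ℝ) ^ 2 * P.ρ j)}

theorem card_pack (H : Hy Ω P f τ β d) (𝓜 : Mesh Ω P M₀ Mt S) (j : Fin P.N) (y : E3) :
    ({v | (v ∈ P.Fine j ∧ v ∈ P.K j ∧ Int3 (zt P j v)) ∧
      dist (f v) y ≤ 4 * (((P.T j).b : ℝ) ^ 2 * P.ρ j)}.encard : ℝ≥0∞) ≤ CP (P.T j).b := by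
  rcases eq_empty_or_nonempty {v | (v ∈ P.Fine j ∧ v ∈ P.K j ∧ Int3 (zt P j v)) ∧
    dist (f v) y ≤ 4 * (((P.T j).b : ℝ) ^ 2 * P.ρ j)} with h | ⟨u, hu, h⟩
  · simp [h]
  obtain ⟨s, h1, h2⟩ := exists_lat H.ok 𝓜 j (zt P j u) (16 * (P.T j).b ^ 3)
  refine (enc_mono (t := (s : Set E3)) fun v hv => h2 v hv.1.2.2 ?_).trans ?_
  · have h3 := dist_triangle_right (f u) (f v) y
    have h4 := hv.2
    obtain ⟨h5, h6⟩ := H.flat hu.1 hv.1.1 (by linarith [(H.small j).1, H.pos])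
    have h7 := (H.two' hu.2.1 hv.1.2.1 h5 h6).1
    rw [← dist_eq_norm (f v), dist_comm] at h7
    refine le_of_mul_le_mul_left (h7.trans ?_) (rho_pos H.ok j)
    push_cast
    nlinarith [b_one P j]
  · rw [encard_coe_eq_coe_finsetCard]
    exact_mod_cast h1

theorem card_W (H : Hy Ω P f τ β d) (𝓜 : Mesh Ω P M₀ Mt S) (j : Fin P.N) (a c : E3) :
    ((W P f j (segment ℝ a c)).encard : ℝ≥0∞) ≤
      CP (P.T j).b * (ENNReal.ofReal (P.ρ j)⁻¹ * segVar f a c + 1) := by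
  have h0 := rho_pos H.ok j
  rcases eq_or_ne (segVar f a c) ⊤ with h | h
  · rw [h, ENNReal.mul_top (by simpa using h0), top_add, ENNReal.mul_top (by simp [CP])]
    exact le_top
  obtain ⟨Y, h1, h2⟩ := cover_curve _ h0 h
  refine (enc_mono fun v hv => ?_).trans
    ((enc_mul (Y : Set E3) fun y _ => card_pack H 𝓜 j y).trans ?_)
  · obtain ⟨h3, x, hx, h4⟩ := hv
    rw [segment_eq_image_lineMap] at hx
    obtain ⟨s, hs, rfl⟩ := hx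
    obtain ⟨y, hy, h5⟩ := h2 s hs
    refine mem_biUnion (Finset.mem_coe.2 hy) ⟨h3, (dist_triangle _ _ _).trans
      ((add_le_add h4 h5).trans ?_)⟩
    linarith [(H.small j).2]
  · rw [encard_coe_eq_coe_finsetCard]
    exact mul_le_mul_right h1 _

theorem segVar_le (hS : SEGV) (hF : Measurable F) {a c : E3} (h : GoodSeg f F a (c - a)) :
    segVar f a c ≤ ∫⁻ z in segment ℝ a c, ‖F z‖ₑ ∂(μH[1]) := by
  rcases eq_or_ne a c with rfl | h1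
  · rw [segVar, eVariationOn.constant_on (by rintro _ ⟨s, -, rfl⟩ _ ⟨s', -, rfl⟩; simp)]
    exact zero_le
  · exact (hS 0 le_rfl h1 hF h).1

theorem card_W_fine (H : Hy Ω P f τ β d) (hS : SEGV) (𝓜 : Mesh Ω P M₀ Mt S) (hF : Measurable F)
    (hg : ∀ e x y, 𝓜.Q.dim e = 1 → 𝓜.Q.cell e = segment ℝ x y → GoodSeg f F x (y - x))
    {j : Fin P.N} (hθ : 0 < θ (P.T j).b ∧ θ (P.T j).b ≤ 1) {e : 𝓜.Q.ι} (he : 𝓜.Q.dim e = 1)
    (hf : 𝓜.Q.cell e ⊆ P.Fine j) {c : ℝ≥0∞} (h1 : 1 ≤ c)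
    (h2 : ENNReal.ofReal (θ (P.T j).b * P.ρ j)⁻¹ *
      ∫⁻ x in 𝓜.Q.cell e, ‖F x - (P.T j).A‖ₑ ∂(μH[1]) ≤ c) :
    ((W P f j (𝓜.Q.cell e)).encard : ℝ≥0∞) ≤ (CP (P.T j).b * ((P.T j).b ^ 2 + 2) : ℕ) * c := by
  obtain ⟨x, y, -, -, h3, hs, -⟩ := 𝓜.cvx.exists_segment he
  obtain ⟨t, ht⟩ := fine_cell H.kuhn H.ok 𝓜 hf
  have h0 := rho_pos H.ok j
  have hx : x ∈ 𝓜.Q.cell e := hs ▸ left_mem_segment ℝ x y
  have hy : y ∈ 𝓜.Q.cell e := hs ▸ right_mem_segment ℝ x y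
  have h4 := ((ht.flat x hx y hy).norm_le H.ok).trans
    (mul_le_of_le_one_right (by positivity) (ht.near x hx y hy))
  have h5 : segVar f x y ≤ ∫⁻ z in segment ℝ x y, ‖F z - (P.T j).A‖ₑ ∂(μH[1]) +
      ENNReal.ofReal (((P.T j).b : ℝ) ^ 2 * P.ρ j) := by
    refine (segVar_le hS hF (hg e x y he hs)).trans ((lintegral_mono
      (g := fun z => ‖F z - (P.T j).A‖ₑ + ‖(P.T j).A‖ₑ) fun z => ?_).trans ?_)
    · simpa using enorm_add_le (F z - (P.T j).A) (P.T j).A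
    · rw [lintegral_add_right _ measurable_const, setLIntegral_const,
        (hS 0 le_rfl h3 hF (hg e x y he hs)).2.2.2.1, edist_dist, ← ofReal_norm,
        ← ENNReal.ofReal_mul (norm_nonneg _), dist_eq_norm, sq, mul_assoc]
      gcongr
      exact (P.T j).normA
  rw [hs] at h2 ⊢
  refine (card_W H 𝓜 j x y).trans ?_
  push_cast
  rw [mul_assoc]
  refine mul_le_mul_right ((add_le_add_left (mul_le_mul_right h5 _) 1).trans ?_) _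
  rw [mul_add, ← ENNReal.ofReal_mul (by positivity), mul_left_comm, inv_mul_cancel₀ h0.ne',
    mul_one, ENNReal.ofReal_pow (Nat.cast_nonneg _), ENNReal.ofReal_natCast, add_mul, two_mul,
    add_comm _ (c + c), add_right_comm]
  refine add_le_add (add_le_add (le_trans ?_ h2) h1) (le_mul_of_one_le_right' h1)
  have := hθ.1
  gcongr
  exact mul_le_of_le_one_left h0.le hθ.2

/-- the set in the third term -/
def Y3 (P : Par) (j : Fin P.N) (δ : ℝ) : Set E3 :=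
  {x ∈ P.U j | P.nu j x ∈ gridLines ∧ ∃ z : Fin 3 → ℤ, dist (P.nu j x) (fun i => (z i : ℝ)) ≤ δ}

theorem card_W_end (H : Hy Ω P f τ β d) (hS : SEGV) (𝓜 : Mesh Ω P M₀ Mt S) (hF : Measurable F)
    (hg : ∀ e x y, 𝓜.Q.dim e = 1 → 𝓜.Q.cell e = segment ℝ x y → GoodSeg f F x (y - x))
    {j : Fin P.N} {e : 𝓜.Q.ι} (he : BoxE 𝓜 j e) {δ : ℝ} (hδ : δ ∈ Icc (0 : ℝ) 1) {a a' : E3}
    (hs : 𝓜.Q.cell e = segment ℝ a a') :
    ((W P f j (segment ℝ a (AffineMap.lineMap a a' δ))).encard : ℝ≥0∞) ≤ CP (P.T j).b *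
      (ENNReal.ofReal (P.ρ j)⁻¹ * ∫⁻ x in 𝓜.Q.cell e ∩ Y3 P j δ, ‖F x‖ₑ ∂(μH[1]) + 1) := by
  have h1 := goodSeg_smul (hg e a a' he.dim hs) hδ
  rw [← vsub_eq_sub, ← AffineMap.lineMap_vsub_left a a' δ] at h1
  refine (card_W H 𝓜 j _ _).trans ?_
  gcongr
  refine (segVar_le hS hF h1).trans (lintegral_mono_set fun x hx => ?_)
  have ha : a ∈ 𝓜.Q.cell e := hs ▸ left_mem_segment ℝ a a'
  have ha' : a' ∈ 𝓜.Q.cell e := hs ▸ right_mem_segment ℝ a a'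
  have h2 : x ∈ 𝓜.Q.cell e := (𝓜.cvx e).1.segment_subset ha (hs ▸ lineMap_mem_segment ℝ a a' hδ) hx
  choose z hz using he.int a (by simp [(edge_ends 𝓜.cvx he.dim hs).2])
  refine ⟨h2, he.U h2, he.grid x h2, z, ?_⟩
  have h3 := mem_image_of_mem (𝓜.ν j).toAffineEquiv.toAffineMap hx
  rw [image_segment, AffineMap.apply_lineMap] at h3
  have h4 := dist_add_dist_of_mem_segment h3
  rw [dist_left_lineMap, Real.norm_of_nonneg hδ.1] at h4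
  have h5 : ∀ u, (𝓜.ν j).toAffineEquiv.toAffineMap u = P.nu j u := 𝓜.ν_eq j
  simp only [h5] at h4
  rw [← funext hz, dist_comm]
  refine (le_add_of_nonneg_right dist_nonneg).trans (h4.trans_le (mul_le_of_le_one_right hδ.1 ?_))
  rw [dist_eq_norm]
  exact he.near a ha a' ha'

/-- the lattice points seen from the ends of an edge -/
def W' (𝓜 : Mesh Ω P M₀ Mt S) (f : E3 → E3) (j : Fin P.N) (δ : ℝ) (e : 𝓜.Q.ι) : Set E3 :=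
  {v | ∃ a a', 𝓜.Q.cell e = segment ℝ a a' ∧ v ∈ W P f j (segment ℝ a (AffineMap.lineMap a a' δ))}

theorem card_box_sum (H : Hy Ω P f τ β d) (hS : SEGV) (𝓜 : Mesh Ω P M₀ Mt S) (hF : Measurable F)
    (hg : ∀ e x y, 𝓜.Q.dim e = 1 → 𝓜.Q.cell e = segment ℝ x y → GoodSeg f F x (y - x))
    (j : Fin P.N) {δ : ℝ} (hδ : δ ∈ Icc (0 : ℝ) 1) :
    ((⋃ e ∈ {e | BoxE 𝓜 j e}, W' 𝓜 f j δ e).encard : ℝ≥0∞) ≤ (2 * CP (P.T j).b : ℕ) *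
      (ENNReal.ofReal (P.ρ j)⁻¹ * ∫⁻ x in Y3 P j δ, ‖F x‖ₑ ∂(μH[1])) +
      (2 * CP (P.T j).b * 7 ^ 6 : ℕ) * (P.Inner j).encard := by
  have h1 := card_box 𝓜 j
  obtain ⟨s, hs⟩ := ((finite_U H.ok 𝓜 j).subset fun e (he : BoxE 𝓜 j e) => he.U).exists_finset_coe
  have h2 : ∀ e ∈ s, BoxE 𝓜 j e := fun e he => (Set.ext_iff.1 hs e).1 he
  rw [show {e | BoxE 𝓜 j e} = (s : Set 𝓜.Q.ι) from hs.symm] at h1 ⊢
  refine (enc_sum s (c := fun e => (2 * CP (P.T j).b : ℕ) * (ENNReal.ofReal (P.ρ j)⁻¹ *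
    ∫⁻ x in 𝓜.Q.cell e ∩ Y3 P j δ, ‖F x‖ₑ ∂(μH[1]) + 1)) fun e he => ?_).trans ?_
  · obtain ⟨p, q, -, -, -, h3, h4, -⟩ := 𝓜.cvx.exists_segment (h2 e he).dim
    refine (enc_mono fun v hv => ?_).trans ((enc_union _ _).trans ((add_le_add
      (card_W_end H hS 𝓜 hF hg (h2 e he) hδ h3) (card_W_end H hS 𝓜 hF hg (h2 e he) hδ
        (h3.trans (segment_symm _ _ _)))).trans_eq ?_))
    · obtain ⟨a, a', h5, h6⟩ := hv
      rw [(edge_ends 𝓜.cvx (h2 e he).dim h5).2, pair_eq_pair_iff] at h4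
      rcases h4 with ⟨rfl, rfl⟩ | ⟨rfl, rfl⟩
      exacts [Or.inl h6, Or.inr h6]
    · push_cast
      ring
  · rw [← Finset.mul_sum, Finset.sum_add_distrib, ← Finset.mul_sum, mul_add, Finset.sum_const,
      nsmul_one, Nat.cast_mul _ (7 ^ 6), mul_assoc]
    gcongr
    · exact sum_lintegral_le 𝓜.Q s (fun e he => (h2 e he).dim) _ _
    · simpa using h1

theorem card_coarse (h : P.Ok Ω) (𝓜 : Mesh Ω P M₀ Mt S) (j : Fin P.N) :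
    ({v | v ∈ P.Fine j ∧ Int3 (zt P j v) ∧ P.η < (P.T j).b * P.ρ j}.encard : ℝ≥0∞) ≤
      ((2 * (P.T j).b + 1) ^ 3 : ℕ) * (P.Inner j).encard := by
  refine (enc_mono (t := ⋃ c ∈ P.Inner j, {v | Int3 (zt P j v) ∧
    ‖zt P j v - (P.n : ℝ) • fun i => (c i : ℝ)‖ ≤ (P.T j).b}) fun v hv => ?_).trans
    (enc_mul _ fun c _ => ?_)
  · obtain ⟨⟨c, hc, h1, -⟩, h2, h3⟩ := hv
    refine mem_biUnion hc ⟨h2, ?_⟩
    have h4 := ucube_near h1 (show (fun i => (c i : ℝ)) ∈ ucube c from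
      ⟨le_rfl, fun i => le_add_of_nonneg_right zero_le_one⟩)
    have h5 := eta_pos P
    have h6 := m_one h j
    have h7 := n_one h
    rw [Par.ρ, ← mul_div_assoc, lt_div_iff₀ (by positivity), mul_comm] at h3
    have h8 := lt_of_mul_lt_mul_right h3 h5.le
    rw [zt, ← smul_sub, norm_smul, Real.norm_natCast]
    nlinarith
  · obtain ⟨s, h1, h2⟩ := exists_lat h 𝓜 j ((P.n : ℝ) • fun i => (c i : ℝ)) (P.T j).b
    refine (enc_mono (t := (s : Set E3)) fun v hv => h2 v hv.1 hv.2).trans ?_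
    rw [encard_coe_eq_coe_finsetCard]
    exact_mod_cast h1

/-- the set in the first term -/
def V1 (P : Par) (j : Fin P.N) : Set E3 :=
  {x ∈ P.U j \ P.K j | (∀ i, ∃ k : ℤ, (P.n : ℝ) * P.nu j x i = k) ∧
    ∀ i ∈ (P.T j).I, ∃ k : ℤ, P.nu j x i = k}

theorem mem_V1 (h : P.Ok Ω) {j : Fin P.N} {v : E3} (h1 : v ∈ P.Fine j) (h2 : Int3 (zt P j v))
    (h3 : v ∉ P.K j) : v ∈ V1 P j :=
  ⟨⟨fine_U h h1, h3⟩, h2, fun i hi => h1.elim fun c hc => ⟨c i, hc.2.2 i hi⟩⟩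

theorem card_stars (hK : KUHN) (h : P.Ok Ω) (𝓜 : Mesh Ω P M₀ Mt S) (j : Fin P.N) (V : Set E3) :
    ({i | 𝓜.Q.cell i ⊆ P.Fine j ∧ ∃ v ∈ V, v ∈ 𝓜.Q.cell i}.encard : ℝ≥0∞) ≤
      (2 ^ 27 : ℕ) * V.encard :=
  (enc_mono (t := ⋃ v ∈ V, {i | 𝓜.Q.cell i ⊆ P.Fine j ∧ v ∈ 𝓜.Q.cell i})
    (by exact fun _ ⟨h1, _, h2, h3⟩ => mem_biUnion h2 ⟨h1, h3⟩)).trans
    (enc_mul V fun v _ => by exact_mod_cast card_star hK h 𝓜 j v)

/-- the counting constant -/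
def Cn (b : ℕ) : ℕ := 2 ^ 27 * (1 + CP b * (b ^ 2 + 2) * 2 ^ 27 + CP b * (b ^ 2 + 2) + 2 * CP b +
  (2 * CP b * 7 ^ 6 + (2 * b + 1) ^ 3))

theorem comb (a₁ a₂ a₃ a₄ c₀ c₁ c₂ c₃ c₄ : ℝ≥0∞) :
    c₀ * (a₁ + (c₁ * 1 * (c₀ * a₁) + (c₁ * a₂ + (c₂ * a₃ + c₃ * a₄ + c₄ * a₄)))) ≤
      c₀ * (1 + c₁ * c₀ + c₁ + c₂ + (c₃ + c₄)) * (a₁ + a₂ + a₃ + a₄) := by
  have e1 : a₁ ≤ a₁ + a₂ + a₃ + a₄ := le_self_add.trans (le_self_add.trans le_self_add)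
  have e2 : a₂ ≤ a₁ + a₂ + a₃ + a₄ := le_add_self.trans (le_self_add.trans le_self_add)
  have e3 : a₃ ≤ a₁ + a₂ + a₃ + a₄ := le_add_self.trans le_self_add
  have e4 : a₄ ≤ a₁ + a₂ + a₃ + a₄ := le_add_self
  generalize a₁ + a₂ + a₃ + a₄ = a at e1 e2 e3 e4
  calc _ ≤ c₀ * (a + (c₁ * 1 * (c₀ * a) + (c₁ * a + (c₂ * a + c₃ * a + c₄ * a)))) := by gcongr
    _ = _ := by ring

theorem count (H : Hy Ω P f τ β d) (hS : SEGV) (𝓜 : Mesh Ω P M₀ Mt S) (hF : Measurable F)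
    (hg : ∀ e x y, 𝓜.Q.dim e = 1 → 𝓜.Q.cell e = segment ℝ x y → GoodSeg f F x (y - x))
    (j : Fin P.N) (hθ : 0 < θ (P.T j).b ∧ θ (P.T j).b ≤ 1) :
    ({i | 𝓜.Q.cell i ⊆ P.Fine j ∧ ¬ GoodC 𝓜 f F θ j i}.encard : ℝ≥0∞) ≤ Cn (P.T j).b *
      ((V1 P j).encard + ENNReal.ofReal (θ (P.T j).b * P.ρ j)⁻¹ *
        ∫⁻ x in 𝓜.Q.skel 1 ∩ P.Fine j, ‖F x - (P.T j).A‖ₑ ∂(μH[1]) +
        ENNReal.ofReal (P.ρ j)⁻¹ * ∫⁻ x in Y3 P j ((P.T j).b * P.m j * d / P.η), ‖F x‖ₑ ∂(μH[1]) +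
        (P.Inner j).encard) := by
  rcases eq_empty_or_nonempty {i | 𝓜.Q.cell i ⊆ P.Fine j ∧ ¬ GoodC 𝓜 f F θ j i} with h | ⟨i, hi, -⟩
  · simp [h]
  obtain ⟨u, hu⟩ := 𝓜.Q.cell_nonempty i
  obtain ⟨-, hδ, hδ'⟩ := H.close (fine_U H.ok (hi hu)) (U_sub H.ok (fine_U H.ok (hi hu)))
    (by rw [dist_self]; linarith [H.pos])
  have h0 := mul_pos hθ.1 (rho_pos H.ok j)
  have h0' : ENNReal.ofReal (θ (P.T j).b * P.ρ j)⁻¹ * ENNReal.ofReal (θ (P.T j).b * P.ρ j) = 1 := by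
    rw [← ENNReal.ofReal_mul (by positivity), inv_mul_cancel₀ h0.ne', ENNReal.ofReal_one]
  let I : 𝓜.Q.ι → ℝ≥0∞ := fun e => ∫⁻ x in 𝓜.Q.cell e, ‖F x - (P.T j).A‖ₑ ∂(μH[1])
  obtain ⟨s, hs⟩ : ∃ s : Finset 𝓜.Q.ι, ∀ e, e ∈ s ↔ 𝓜.Q.dim e = 1 ∧
      𝓜.Q.cell e ⊆ P.Fine j ∧ ENNReal.ofReal (θ (P.T j).b * P.ρ j) < I e :=
    ⟨((finite_U H.ok 𝓜 j).subset (by exact fun e he x hx => fine_U H.ok (he.2.1 hx))).toFinset,
      fun e => Finite.mem_toFinset _⟩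
  let B := {e | 𝓜.Q.dim e = 1 ∧ I e ≤ ENNReal.ofReal (θ (P.T j).b * P.ρ j) ∧
    𝓜.Q.cell e ⊆ P.Fine j ∧ ∃ v ∈ V1 P j, v ∈ 𝓜.Q.cell e}
  have k1 := (enc_mul B (W := fun e => W P f j (𝓜.Q.cell e)) fun e he => card_W_fine H hS 𝓜 hF hg
    hθ he.1 he.2.2.1 le_rfl ((mul_le_mul_right he.2.1 _).trans h0'.le)).trans (mul_le_mul_right
      ((enc_mono (s := B) fun e he => he.2.2).trans (card_stars H.kuhn H.ok 𝓜 j (V1 P j))) _)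
  have k2 := enc_sum s (W := fun e => W P f j (𝓜.Q.cell e)) fun e he => card_W_fine H hS 𝓜 hF hg
    hθ ((hs e).1 he).1 ((hs e).1 he).2.1
      (h0'.ge.trans (mul_le_mul_right ((hs e).1 he).2.2.le _)) le_rfl
  have k2' := sum_lintegral_le 𝓜.Q s (fun e he => ((hs e).1 he).1) (𝓜.Q.skel 1 ∩ P.Fine j)
    fun x => ‖F x - (P.T j).A‖ₑ
  rw [Finset.sum_congr rfl fun e he => by rw [inter_eq_left.2 (subset_inter
    (𝓜.Q.cell_subset_skel ((hs e).1 he).1.le) ((hs e).1 he).2.1)]] at k2'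
  rw [← Finset.mul_sum, ← Finset.mul_sum] at k2
  replace k2 := k2.trans (mul_le_mul_right (mul_le_mul_right k2' _) _)
  have k3 := card_box_sum H hS 𝓜 hF hg j ⟨(norm_nonneg _).trans hδ, hδ'.trans (by norm_num)⟩
  have k4 := card_coarse H.ok 𝓜 j
  have k5 := (enc_union (V1 P j) _).trans (add_le_add le_rfl ((enc_union _ _).trans (add_le_add k1
    ((enc_union _ _).trans (add_le_add k2 ((enc_union _ _).trans (add_le_add k3 k4)))))))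
  refine (enc_mono fun i hi => ?_).trans ((card_stars H.kuhn H.ok 𝓜 j _).trans
    ((mul_le_mul_right k5 _).trans ?_))
  · obtain ⟨h1, h2⟩ := hi
    simp only [GoodC, GoodV, not_and, not_forall] at h2
    obtain ⟨v, hv, h3, h4⟩ := h2 h1
    refine ⟨h1, v, ?_, hv⟩
    by_cases h5 : v ∈ P.K j
    swap
    · exact Or.inl (mem_V1 H.ok (h1 hv) h3 h5)
    rcases lt_or_ge P.η ((P.T j).b * P.ρ j) with h6 | h6
    · exact Or.inr (Or.inr (Or.inr (Or.inr ⟨h1 hv, h3, h6⟩)))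
    obtain ⟨e, he, x, hx, h7, h8⟩ := h4 h5 h6
    have h9 : v ∈ W P f j (𝓜.Q.cell e) := ⟨⟨h1 hv, h5, h3⟩, x, hx, h7⟩
    by_cases h10 : 𝓜.Q.cell e ⊆ P.Fine j
    · rcases lt_or_ge (ENNReal.ofReal (θ (P.T j).b * P.ρ j)) (I e) with h11 | h11
      · exact Or.inr (Or.inr (Or.inl (mem_biUnion ((hs e).2 ⟨he, h10, h11⟩) h9)))
      · refine Or.inr (Or.inl (mem_biUnion (x := e) ⟨he, h11, h10, by_contra fun h12 => ?_⟩ h9))
        exact h8 ⟨h10, fun w hw h13 => by_contra fun h14 =>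
          h12 ⟨w, mem_V1 H.ok (h10 hw) h13 h14, hw⟩, h11⟩
    · obtain ⟨h11, a, a', h12, h13⟩ := box_edge H.ok 𝓜 he hx (h1 hv) h5 (H.close (K_U h5)
        (𝓜.carrier.le (𝓜.Q.cell_subset_carrier e hx))
        (by linarith [(H.small j).1, H.pos])).2.1 hδ' h10
      exact Or.inr (Or.inr (Or.inr (Or.inl (mem_biUnion h11 ⟨a, a', h12, h9.1, x, h13, h7⟩))))
  · refine (comb _ _ _ _ _ _ _ _ _).trans_eq ?_
    simp only [Cn, Nat.cast_mul, Nat.cast_add, Nat.cast_one]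

end Gd

end P073
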