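import Vale.Agent.P073Z.GOOD.Par
import Vale.Agent.P073Z.DISC2.Path

/-!
# The cells of the mesh near the compact sets
-/

open Set Metric Topology Filter MeasureTheory
open scoped ENNReal NNReal

namespace P073

namespace Gd

variable {Ω : Set E3} {P : Par} {M₀ : ℝ≥0} {Mt : Ty → ℕ → ℝ≥0} {S : Ty → ℕ → Set E3}
  {j : Fin P.N} {x y : E3}

/-- a fine simplex with its vertices -/
structure Rep (P : Par) (j : Fin P.N) (t : Finset E3) (C : Set E3) : Prop where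
  fine : C ⊆ P.Fine j
  mem : ∀ v, v ∈ t ↔ v ∈ C ∧ Int3 (zt P j v)
  card : t.card ≤ 4
  indep : AffineIndependent ℝ ((↑) : t → E3)
  hull : C = convexHull ℝ (t : Set E3)
  one : ∀ v ∈ t, ∀ w ∈ t, v ≠ w → ‖zt P j v - zt P j w‖ = 1
  near : ∀ x ∈ C, ∀ y ∈ C, ‖zt P j x - zt P j y‖ ≤ 1
  flat : ∀ x ∈ C, ∀ y ∈ C, Flat P j x y
  sum1 : ∀ x ∈ C, ∑ v ∈ t, hat (zt P j x - zt P j v) = 1
  sumv : ∀ x ∈ C, ∑ v ∈ t, hat (zt P j x - zt P j v) • v = x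
  zero : ∀ x ∈ C, ∀ v, Int3 (zt P j v) → v ∉ t → hat (zt P j x - zt P j v) = 0

theorem exists_zt (h : P.Ok Ω) (𝓜 : Mesh Ω P M₀ Mt S) (j : Fin P.N) :
    ∃ e : E3 ≃ᵃ[ℝ] E3, ∀ x, e x = zt P j x :=
  ⟨(𝓜.ν j).toAffineEquiv.trans (LinearEquiv.smulOfNeZero ℝ E3 (P.n : ℝ)
    (one_pos.trans_le (n_one h)).ne').toAffineEquiv, fun x => by simp [zt, 𝓜.ν_eq]⟩

theorem nu_le_zt (h : P.Ok Ω) (x y : E3) : ‖P.nu j x - P.nu j y‖ ≤ ‖zt P j x - zt P j y‖ := by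
  rw [zt, zt, ← smul_sub, norm_smul, Real.norm_natCast]
  exact le_mul_of_one_le_left (norm_nonneg _) (n_one h)

theorem fine_cell (hK : KUHN) (h : P.Ok Ω) (𝓜 : Mesh Ω P M₀ Mt S) {i : 𝓜.Q.ι}
    (hi : 𝓜.Q.cell i ⊆ P.Fine j) : ∃ t, Rep P j t (𝓜.Q.cell i) := by
  classical
  obtain ⟨x₀, hx₀⟩ := 𝓜.Q.ocell_nonempty i
  obtain ⟨e, he⟩ := exists_zt h 𝓜 j
  obtain ⟨t, h1, h2, h3, h4, h5, h6⟩ := hK.2 (zt P j x₀)
  have hC : ∀ x, x ∈ 𝓜.Q.cell i ↔ zt P j x ∈ kcell (zt P j x₀) := fun x => by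
    rw [𝓜.fine j i hi x₀ hx₀]
    rfl
  have hm : ∀ v, v ∈ t.image e.symm ↔ zt P j v ∈ t := fun v => by
    rw [Finset.mem_image, ← he]
    exact ⟨fun ⟨u, hu, h⟩ => by rwa [← h, e.apply_symm_apply], fun h => ⟨_, h, by simp⟩⟩
  have hz : ∀ u, zt P j (e.symm u) = u := fun u => by rw [← he, e.apply_symm_apply]
  have hn : ∀ x ∈ 𝓜.Q.cell i, ∀ y ∈ 𝓜.Q.cell i, ‖zt P j x - zt P j y‖ ≤ 1 := by
    intro x hx y hy
    rw [hC, h4] at hx hy
    obtain ⟨u, hu, w, hw, h7⟩ := convexHull_exists_dist_ge2 hx hy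
    rw [dist_eq_norm, dist_eq_norm] at h7
    rcases eq_or_ne u w with rfl | h8
    · exact h7.trans (by simp)
    · exact h7.trans (h5 u hu w hw h8).le
  have hk : ∀ x ∈ 𝓜.Q.cell i, ∀ v, Int3 (zt P j v) → hat (zt P j x - zt P j v) ≠ 0 →
      v ∈ t.image e.symm := fun x hx v hv h7 => by
    rw [hm, ← Finset.mem_coe, h1]
    exact (h6 _).1.1 ((hC x).1 hx) ⟨hv, h7⟩
  refine ⟨t.image e.symm, hi, fun v => ⟨fun hv => ?_, fun hv => hk v hv.1 v hv.2 ?_⟩,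
    Finset.card_image_le.trans h2, ?_, ?_, fun v hv w hw h7 => ?_, hn, fun x hx y hy => ?_,
    fun x hx => ?_, fun x hx => ?_, fun x hx v hv h7 => by_contra fun h8 => h7 (hk x hx v hv h8)⟩
  · rw [hm] at hv
    refine ⟨?_, (show zt P j v ∈ kv (zt P j x₀) from h1 ▸ hv).1⟩
    rw [hC, h4]
    exact subset_convexHull ℝ _ hv
  · rw [sub_self, hat_zero]
    exact one_ne_zero
  · have h7 := (e.symm.affineIndependent_set_of_eq_iff (s := (t : Set E3))).2 h3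
    rwa [← Finset.coe_image] at h7
  · ext x
    rw [hC, h4, Finset.coe_image, ← he, ← AffineEquiv.coe_toAffineMap e.symm,
      ← AffineMap.image_convexHull]
    exact ⟨fun h => ⟨_, h, by simp⟩, fun ⟨u, hu, h⟩ => by simpa [← h] using hu⟩
  · refine h5 _ ((hm v).1 hv) _ ((hm w).1 hw) fun h8 => h7 (e.injective ?_)
    rwa [he, he]
  · have h7 : midpoint ℝ x y ∈ 𝓜.Q.cell i := (𝓜.cvx i).1.midpoint_mem hx hy
    have h8 := hn x hx y hy
    have h9 := dist_left_midpoint (𝕜 := ℝ) (e x) (e y)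
    have h10 := dist_right_midpoint (𝕜 := ℝ) (e x) (e y)
    rw [← e.map_midpoint, he, he, he, dist_eq_norm, dist_eq_norm, Real.norm_two] at h9 h10
    exact (flat_of_near (hi hx) (hi h7) ((nu_le_zt h _ _).trans_lt (by linarith))).trans
      (flat_of_near (hi hy) (hi h7) ((nu_le_zt h _ _).trans_lt (by linarith))).symm
  · rw [Finset.sum_image e.symm.injective.injOn]
    simpa only [hz] using ((h6 _).2 ((hC x).1 hx)).1
  · obtain ⟨h7, h8⟩ := (h6 _).2 ((hC x).1 hx)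
    have h9 := affine_sum e.symm.toAffineMap t h7
    rw [h8, ← he, AffineEquiv.coe_toAffineMap, e.symm_apply_apply, he] at h9
    rw [Finset.sum_image e.symm.injective.injOn]
    simpa only [hz] using h9.symm

theorem Rep.sub {t : Finset E3} {C : Set E3} (h : Rep P j t C) {v : E3} (hv : v ∈ t) : v ∈ C :=
  ((h.mem v).1 hv).1

theorem Rep.exists_mem {t : Finset E3} {C : Set E3} (h : Rep P j t C) (hx : x ∈ C) :
    ∃ v, v ∈ t := by
  rw [h.hull] at hx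
  exact convexHull_nonempty_iff.1 ⟨x, hx⟩

theorem exists_lat (h : P.Ok Ω) (𝓜 : Mesh Ω P M₀ Mt S) (j : Fin P.N) (y : E3) (R : ℕ) :
    ∃ s : Finset E3, s.card ≤ (2 * R + 1) ^ 3 ∧
      ∀ v, Int3 (zt P j v) → ‖zt P j v - y‖ ≤ R → v ∈ s := by
  classical
  obtain ⟨e, he⟩ := exists_zt h 𝓜 j
  obtain ⟨s, h1, h2⟩ := exists_lattice y R
  exact ⟨s.image e.symm, Finset.card_image_le.trans h1, fun v hv h3 =>
    Finset.mem_image.2 ⟨_, h2 _ hv h3, by rw [← he, e.symm_apply_apply]⟩⟩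

theorem card_star (hK : KUHN) (h : P.Ok Ω) (𝓜 : Mesh Ω P M₀ Mt S) (j : Fin P.N) (v : E3) :
    {i | 𝓜.Q.cell i ⊆ P.Fine j ∧ v ∈ 𝓜.Q.cell i}.encard ≤ (2 ^ 27 : ℕ) := by
  classical
  obtain ⟨s, h1, h2⟩ := exists_lat h 𝓜 j (zt P j v) 1
  refine (encard_le_encard_of_injOn (t := (s.powerset : Set (Finset E3)))
    (f := fun i => s.filter fun u => Int3 (zt P j u) ∧ u ∈ 𝓜.Q.cell i)
    (fun i _ => Finset.mem_powerset.2 (Finset.filter_subset _ _)) fun i hi i' hi' e => ?_).trans ?_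
  · have k : ∀ i, 𝓜.Q.cell i ⊆ P.Fine j → v ∈ 𝓜.Q.cell i → 𝓜.Q.cell i =
        convexHull ℝ (s.filter fun u => Int3 (zt P j u) ∧ u ∈ 𝓜.Q.cell i : Finset E3) := by
      intro i h3 h4
      obtain ⟨t, ht⟩ := fine_cell hK h 𝓜 h3
      refine ht.hull.trans (congrArg _ (congrArg _ (Finset.ext fun u => ?_)))
      rw [ht.mem, Finset.mem_filter]
      exact ⟨fun h5 => ⟨h2 u h5.2 (by simpa using ht.near u h5.1 v h4), h5.symm⟩,
        fun h5 => h5.2.symm⟩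
    refine 𝓜.Q.cell_injective ?_
    rw [k i hi.1 hi.2, k i' hi'.1 hi'.2]
    exact congrArg _ (congrArg _ e)
  · rw [encard_coe_eq_coe_finsetCard, Finset.card_powerset, Nat.cast_le]
    exact Nat.pow_le_pow_right two_pos h1

theorem vertex_int (hK : KUHN) (h : P.Ok Ω) (𝓜 : Mesh Ω P M₀ Mt S) {v : 𝓜.Q.ι}
    (hv : 𝓜.Q.cell v = {x}) (hx : x ∈ P.Fine j) : Int3 (zt P j x) := by
  obtain ⟨t, ht⟩ := fine_cell hK h 𝓜 (i := v) (j := j) (by rwa [hv, singleton_subset_iff])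
  rw [hv] at ht
  obtain ⟨u, hu⟩ := ht.exists_mem rfl
  obtain ⟨rfl, h1⟩ := (ht.mem u).1 hu
  exact h1

theorem end_int (hK : KUHN) (h : P.Ok Ω) (𝓜 : Mesh Ω P M₀ Mt S) {e : 𝓜.Q.ι}
    (he : 𝓜.Q.dim e = 1) (hs : 𝓜.Q.cell e = segment ℝ x y) (hx : x ∈ P.Fine j) :
    Int3 (zt P j x) := by
  obtain ⟨v, -, hv⟩ := 𝓜.Q.vertex_of_mem_bd he (x := x)
    (by rw [(edge_ends 𝓜.cvx he hs).2]; simp)
  exact vertex_int hK h 𝓜 hv hx

open Classical in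
theorem fine_edge (hK : KUHN) (h : P.Ok Ω) (𝓜 : Mesh Ω P M₀ Mt S) {e : 𝓜.Q.ι}
    (he : 𝓜.Q.dim e = 1) (hs : 𝓜.Q.cell e = segment ℝ x y) (hf : 𝓜.Q.cell e ⊆ P.Fine j) :
    Rep P j {x, y} (segment ℝ x y) := by
  obtain ⟨t, ht⟩ := fine_cell hK h 𝓜 hf
  obtain ⟨g, hg⟩ := exists_zt h 𝓜 j
  have h1 := (edge_ends 𝓜.cvx he hs).1
  have h2 := end_int hK h 𝓜 he hs (hf (hs ▸ left_mem_segment ℝ x y))
  have h3 := end_int hK h 𝓜 he (hs.trans (segment_symm ℝ x y))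
    (hf (hs ▸ right_mem_segment ℝ x y))
  rw [hs] at ht
  have hx := (ht.mem x).2 ⟨left_mem_segment ℝ x y, h2⟩
  have hy := (ht.mem y).2 ⟨right_mem_segment ℝ x y, h3⟩
  suffices t = {x, y} by rwa [← this]
  refine Finset.ext fun w => ⟨fun hw => by_contra fun h4 => ?_, fun hw => ?_⟩
  · simp only [Finset.mem_insert, Finset.mem_singleton, not_or] at h4
    have h5 := mem_image_of_mem g.toAffineMap (ht.sub hw)
    rw [image_segment] at h5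
    have h6 := dist_add_dist_of_mem_segment h5
    simp only [AffineEquiv.coe_toAffineMap, hg, dist_eq_norm] at h6
    rw [ht.one x hx w hw (Ne.symm h4.1), ht.one w hw y hy h4.2, ht.one x hx y hy h1] at h6
    norm_num at h6
  · rcases Finset.mem_insert.1 hw with rfl | h4
    exacts [hx, Finset.mem_singleton.1 h4 ▸ hy]

open Classical in
theorem Rep.hat_edge (h : Rep P j {x, y} (segment ℝ x y)) (hne : x ≠ y) {s : ℝ}
    (hs : s ∈ Icc (0 : ℝ) 1) : hat (zt P j (AffineMap.lineMap x y s) - zt P j y) = s := by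
  have h1 : AffineMap.lineMap x y s ∈ segment ℝ x y := by
    rw [segment_eq_image_lineMap]
    exact mem_image_of_mem _ hs
  have h2 := h.sum1 _ h1
  have h3 := h.sumv _ h1
  rw [Finset.sum_pair hne] at h2 h3
  generalize hat (zt P j (AffineMap.lineMap x y s) - zt P j y) = c at h2 h3
  rw [eq_sub_of_add_eq h2, ← AffineMap.lineMap_apply_module] at h3
  exact AffineMap.lineMap_injective ℝ hne h3

theorem cell_buf (𝓜 : Mesh Ω P M₀ Mt S) {i : 𝓜.Q.ι} (hx : x ∈ 𝓜.Q.cell i) (hy : y ∈ P.Fine j)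
    (hd : ‖P.nu j x - P.nu j y‖ < 1) : 𝓜.Q.cell i ⊆ P.BufSet j := by
  have h1 : IsOpen {u | ‖𝓜.ν j u - P.nu j y‖ < 1} :=
    isOpen_lt ((𝓜.ν j).continuous.sub continuous_const).norm continuous_const
  obtain ⟨u, h2, h3⟩ := _root_.mem_closure_iff.1 ((𝓜.Q.ball i).subset_closure_int hx) _ h1
    (by rwa [mem_ofPred_eq, 𝓜.ν_eq])
  obtain ⟨c, hc, h4, -⟩ := hy
  rw [mem_ofPred_eq, 𝓜.ν_eq] at h2
  obtain ⟨h5, h6⟩ := floor_buf hc h4 h2.le
  exact fun w hw => ⟨_, h5, (𝓜.sub_box j _ h5 _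
    ⟨_, fun i => ⌊P.nu j u i⌋ + 1, fun _ => Or.inr rfl, by simp [ucube]⟩ Subset.rfl).cell_subset
      h3 h6 hw⟩

theorem box_seg {lo hi : Fin 3 → ℤ} (h : ∀ i, hi i = lo i ∨ hi i = lo i + 1) {p q : E3}
    (hX : Icc (fun i => (lo i : ℝ)) (fun i => (hi i : ℝ)) = segment ℝ p q) :
    segment ℝ p q = segment ℝ (fun i => (lo i : ℝ)) (fun i => (hi i : ℝ)) ∧
      segment ℝ p q ⊆ gridLines := by
  have h0 : ∀ i, (lo i : ℝ) ≤ hi i ∧ (hi i : ℝ) ≤ lo i + 1 := fun i => by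
    rcases h i with h1 | h1 <;> simp [h1]
  obtain ⟨k, hk⟩ : ∃ k, ∀ i, i ≠ k → hi i = lo i := by
    by_contra h1
    push Not at h1
    obtain ⟨k, -, hk⟩ := h1 0
    obtain ⟨l, hlk, hl⟩ := h1 k
    have h2 : ∀ k, ∃ s : ℝ, ∀ i, Function.update (fun i => (lo i : ℝ)) k (hi k) i =
        p i + s * (q i - p i) := fun k => by
      have h3 : Function.update (fun i => (lo i : ℝ)) k (hi k) ∈ segment ℝ p q := by
        rw [← hX]
        constructor <;> intro i <;> rcases eq_or_ne i k with rfl | h4 <;> simp [*, (h0 _).1]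
      rw [segment_eq_image'] at h3
      obtain ⟨s, -, h3⟩ := h3
      exact ⟨s, fun i => by simp [← h3]⟩
    have h3 : (fun i => (lo i : ℝ)) ∈ segment ℝ p q := hX ▸ ⟨le_rfl, fun i => (h0 i).1⟩
    rw [segment_eq_image'] at h3
    obtain ⟨s, -, h3⟩ := h3
    obtain ⟨s₁, h4⟩ := h2 k
    obtain ⟨s₂, h5⟩ := h2 l
    have e1 := congrFun h3 k
    have e2 := congrFun h3 l
    have e3 := h4 k
    have e4 := h5 k
    have e5 := h5 l
    simp only [Function.update_self, Function.update_of_ne hlk.symm, Pi.add_apply, Pi.smul_apply,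
      Pi.sub_apply, smul_eq_mul, (h k).resolve_left hk, (h l).resolve_left hl, Int.cast_add,
      Int.cast_one] at e1 e2 e3 e4 e5
    have e6 : (s₁ - s) * (q k - p k) = 1 := by linarith
    have e7 : (s₂ - s) * (q k - p k) = 0 := by linarith
    have e8 : (s₂ - s) * (q l - p l) = 1 := by linarith
    rcases mul_eq_zero.1 e7 with e9 | e9
    · simp [e9] at e8
    · simp [e9] at e6
  rw [← hX]
  have h1 : ∀ ξ ∈ Icc (fun i => (lo i : ℝ)) (fun i => (hi i : ℝ)), ∀ i, hi i = lo i →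
      ξ i = lo i := fun ξ hξ i e => le_antisymm (by simpa [e] using hξ.2 i) (hξ.1 i)
  refine ⟨Subset.antisymm (fun ξ hξ => ?_) ((convex_Icc _ _).segment_subset
    ⟨le_rfl, fun i => (h0 i).1⟩ ⟨fun i => (h0 i).1, le_rfl⟩),
    fun ξ hξ => ⟨k, fun i hi => ⟨_, h1 ξ hξ i (hk i hi)⟩⟩⟩
  rw [segment_eq_image']
  refine ⟨ξ k - lo k, ⟨sub_nonneg.2 (hξ.1 k), by linarith [hξ.2 k, (h0 k).2]⟩, funext fun i => ?_⟩
  rcases h i with e | e
  · simp [e, h1 ξ hξ i e]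
  · obtain rfl : i = k := by_contra fun h2 => by have := hk i h2; omega
    simp [e]

theorem box_end {lo hi c : Fin 3 → ℤ} (h : ∀ i, hi i = lo i ∨ hi i = lo i + 1)
    {I : Finset (Fin 3)} {ω : E3} {δ s : ℝ} (hω : ω ∈ uface c I)
    (hd : ‖AffineMap.lineMap (fun i => (lo i : ℝ)) (fun i => (hi i : ℝ)) s - ω‖ ≤ δ)
    (h1 : δ < s) (h2 : δ < 1 - s) :
    Icc (fun i => (lo i : ℝ)) (fun i => (hi i : ℝ)) ⊆ uface c I := by
  have h0 := (norm_nonneg _).trans hd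
  have h3 : ∀ i, c i ≤ lo i ∧ hi i ≤ c i + 1 ∧ (i ∈ I → hi i ≤ c i) := fun i => by
    have h4 := abs_le.1 ((norm_le_pi_norm _ i).trans hd)
    have h5 := hω.1.1 i
    have h6 := hω.1.2 i
    simp only [Pi.sub_apply, AffineMap.lineMap_apply_module', Pi.add_apply, Pi.smul_apply,
      smul_eq_mul] at h4 h5 h6
    have k : ∀ {a b : ℤ}, (a : ℝ) < b + 1 → a ≤ b := fun h => by
      exact_mod_cast Int.lt_add_one_iff.1 (by exact_mod_cast h)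
    rcases h i with e | e <;> rw [e] at h4 ⊢ <;> push_cast at h4 <;>
      refine ⟨k (by linarith), k (by push_cast; linarith), fun hi => k ?_⟩ <;>
      have h7 := hω.2 i hi <;> push_cast <;> linarith
  intro ξ hξ
  have h4 : ∀ i, (c i : ℝ) ≤ ξ i := fun i => (Int.cast_le.2 (h3 i).1).trans (hξ.1 i)
  refine ⟨⟨h4, fun i => (hξ.2 i).trans
    ((Int.cast_le.2 (h3 i).2.1).trans_eq (by simp))⟩, fun i hi =>
    le_antisymm ((hξ.2 i).trans (Int.cast_le.2 ((h3 i).2.2 hi))) (h4 i)⟩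

/-- a coarse edge near the inner cubes -/
structure BoxE (𝓜 : Mesh Ω P M₀ Mt S) (j : Fin P.N) (e : 𝓜.Q.ι) : Prop where
  dim : 𝓜.Q.dim e = 1
  U : 𝓜.Q.cell e ⊆ P.U j
  grid : ∀ y ∈ 𝓜.Q.cell e, P.nu j y ∈ gridLines
  near : ∀ y ∈ 𝓜.Q.cell e, ∀ y' ∈ 𝓜.Q.cell e, ‖P.nu j y - P.nu j y'‖ ≤ 1
  int : ∀ a ∈ 𝓜.Q.bd e, Int3 (P.nu j a)
  inner : ∃ c ∈ P.Inner j, ∀ y ∈ 𝓜.Q.cell e, ‖P.nu j y - fun i => (c i : ℝ)‖ ≤ (3 : ℕ)

theorem box_edge (h : P.Ok Ω) (𝓜 : Mesh Ω P M₀ Mt S) {e : 𝓜.Q.ι} (he : 𝓜.Q.dim e = 1)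
    (hx : x ∈ 𝓜.Q.cell e) (hy : y ∈ P.Fine j) (hyK : y ∈ P.K j) {δ : ℝ}
    (hd : ‖P.nu j x - P.nu j y‖ ≤ δ) (hδ : δ ≤ 1 / 10) (hn : ¬ 𝓜.Q.cell e ⊆ P.Fine j) :
    BoxE 𝓜 j e ∧ ∃ a a', 𝓜.Q.cell e = segment ℝ a a' ∧
      x ∈ segment ℝ a (AffineMap.lineMap a a' δ) := by
  obtain ⟨_, ⟨lo, hi, h1, rfl⟩, h2⟩ := 𝓜.coarse j e (cell_buf 𝓜 hx hy (by linarith)) hn
  obtain ⟨p, q, -, -, -, h3, -⟩ := 𝓜.cvx.exists_segment he
  obtain ⟨c, hc, h4⟩ := hy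
  let g := (𝓜.ν j).toAffineEquiv
  have hg : ∀ u, g u = P.nu j u := 𝓜.ν_eq j
  have h5 : Icc (fun i => (lo i : ℝ)) (fun i => (hi i : ℝ)) = g '' 𝓜.Q.cell e := by
    rw [h2, ← funext hg, image_preimage_eq _ g.surjective]
  have h6 := image_segment ℝ g.toAffineMap p q
  rw [← h3, AffineEquiv.coe_toAffineMap, ← h5] at h6
  obtain ⟨h7, h8⟩ := box_seg h1 h6
  rw [← h6] at h7 h8
  obtain ⟨a, ha⟩ := g.surjective fun i => (lo i : ℝ)
  obtain ⟨a', ha'⟩ := g.surjective fun i => (hi i : ℝ)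
  have h9 : 𝓜.Q.cell e = segment ℝ a a' := by
    have h10 := image_segment ℝ g.toAffineMap a a'
    rw [AffineEquiv.coe_toAffineMap, ha, ha', ← h7, h5] at h10
    exact (g.injective.image_injective h10).symm
  have h10 : ∀ u ∈ 𝓜.Q.cell e, ∀ u' ∈ 𝓜.Q.cell e, ‖P.nu j u - P.nu j u'‖ ≤ 1 := by
    have k : ∀ u ∈ 𝓜.Q.cell e, P.nu j u ∈ ucube lo := fun u hu => by
      rw [h2] at hu
      refine ⟨hu.1, fun i => (hu.2 i).trans ?_⟩
      rcases h1 i with e | e <;> simp [e]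
    exact fun u hu u' hu' => ucube_near (k u hu) (k u' hu')
  have h11 : ∀ u ∈ 𝓜.Q.cell e, ‖P.nu j u - P.nu j y‖ ≤ 2 := fun u hu => by
    linarith [norm_sub_le_norm_sub_add_norm_sub (P.nu j u) (P.nu j x) (P.nu j y), h10 u hu x hx]
  refine ⟨⟨he, fun u hu => mem_U hyK ?_, fun u hu => h8 (by rwa [h2] at hu), h10, fun u hu => ?_,
    c, hc, fun u hu => ?_⟩, ?_⟩
  · have h12 := eta_pos P
    have h13 := b_one P j
    rw [dist_eq_norm]
    refine (le_nu h u y).trans ((mul_le_mul_of_nonneg_left (h11 u hu) (by positivity)).trans ?_)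
    nlinarith
  · rw [(edge_ends 𝓜.cvx he h9).2] at hu
    rw [← hg]
    rcases hu with rfl | rfl
    exacts [ha ▸ fun i => ⟨_, rfl⟩, ha' ▸ fun i => ⟨_, rfl⟩]
  · have h12 := ucube_near h4.1 (show (fun i => (c i : ℝ)) ∈ ucube c from
      ⟨le_rfl, fun i => le_add_of_nonneg_right zero_le_one⟩)
    have h13 := norm_sub_le_norm_sub_add_norm_sub (P.nu j u) (P.nu j y) fun i => (c i : ℝ)
    push_cast
    linarith [h11 u hu]
  · have h12 := hx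
    rw [h9, segment_eq_image_lineMap] at h12
    obtain ⟨s, hs, rfl⟩ := h12
    have k : ∀ (a a' : E3) {s : ℝ}, 0 ≤ s → s ≤ δ →
        AffineMap.lineMap a a' s ∈ segment ℝ a (AffineMap.lineMap a a' δ) := by
      intro a a' s h0 h1
      have h2 := image_segment ℝ (AffineMap.lineMap a a' : ℝ →ᵃ[ℝ] E3) 0 δ
      rw [AffineMap.lineMap_apply_zero, segment_eq_Icc (h0.trans h1)] at h2
      exact h2 ▸ mem_image_of_mem _ ⟨h0, h1⟩
    by_cases h13 : s ≤ δ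
    · exact ⟨_, _, h9, k _ _ hs.1 h13⟩
    by_cases h14 : 1 - s ≤ δ
    · refine ⟨_, _, h9.trans (segment_symm _ _ _), ?_⟩
      have h15 := k a' a (sub_nonneg.2 hs.2) h14
      rwa [AffineMap.lineMap_apply_one_sub] at h15
    rw [← hg, g.apply_lineMap, ha, ha'] at hd
    refine (hn fun u hu => ⟨c, hc, box_end h1 h4 hd (not_le.1 h13) (not_le.1 h14) ?_⟩).elim
    rwa [h2] at hu

theorem card_box (𝓜 : Mesh Ω P M₀ Mt S) (j : Fin P.N) :
    ({e | BoxE 𝓜 j e}.encard : ℝ≥0∞) ≤ (7 ^ 6 : ℕ) * (P.Inner j).encard := by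
  refine (enc_mono (t := ⋃ c ∈ P.Inner j, {e | 𝓜.Q.dim e = 1 ∧ ∀ a ∈ 𝓜.Q.bd e,
    Int3 (P.nu j a) ∧ ‖P.nu j a - fun i => (c i : ℝ)‖ ≤ (3 : ℕ)}) fun e he => ?_).trans
    (enc_mul _ fun c _ => ?_)
  · obtain ⟨c, hc, h1⟩ := he.inner
    exact mem_biUnion hc ⟨he.dim, fun a ha => ⟨he.int a ha, h1 a (𝓜.Q.bd_subset e ha)⟩⟩
  · obtain ⟨s, h1, h2⟩ := exists_lattice (fun i => (c i : ℝ)) 3
    refine (enc_mono (t := ⋃ u ∈ (s ×ˢ s : Finset (E3 × E3)), {e | 𝓜.Q.cell e =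
      segment ℝ ((𝓜.ν j).symm u.1) ((𝓜.ν j).symm u.2)}) fun e he => ?_).trans
      ((enc_sum _ (c := fun _ => 1) fun u _ => ?_).trans ?_)
    · obtain ⟨p, q, -, -, -, h3, h4, -⟩ := 𝓜.cvx.exists_segment he.1
      have h5 := he.2 p (by simp [h4])
      have h6 := he.2 q (by simp [h4])
      refine mem_biUnion (x := (P.nu j p, P.nu j q)) (Finset.mem_coe.2 (Finset.mem_product.2
        ⟨h2 _ h5.1 h5.2, h2 _ h6.1 h6.2⟩)) ?_
      simp [← 𝓜.ν_eq, h3]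
    · exact_mod_cast encard_le_one_iff_subsingleton.2 fun e he e' he' =>
        𝓜.Q.cell_injective (Eq.trans he (Eq.symm he'))
    · rw [Finset.sum_const, nsmul_one, Finset.card_product, Nat.cast_le]
      exact (Nat.mul_le_mul h1 h1).trans (by norm_num)

end Gd

end P073
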