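import Vale.Agent.P073Z.GOOD.Cell

/-!
# The key estimate for the affine interpolation on fine simplices
-/

open Set Metric Topology Filter MeasureTheory
open scoped ENNReal NNReal

namespace P073

namespace Gd

/-- the distortion constant -/
def Mb (b : ℕ) : ℝ := 2 ^ 29 * ((b : ℝ) + 1) ^ 3

theorem le_Mb {b : ℕ} (hb : (1 : ℝ) ≤ b) :
    100 * (b : ℝ) ^ 2 ≤ Mb b ∧ 4 * (b : ℝ) ^ 3 ≤ Mb b ∧ 2 ^ 27 ≤ Mb b := by
  have h1 : (b : ℝ) ^ 3 ≤ ((b : ℝ) + 1) ^ 3 := by gcongr; linarith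
  have h2 : (b : ℝ) ^ 2 ≤ (b : ℝ) ^ 3 := pow_le_pow_right₀ hb (by norm_num)
  have h3 : 1 ≤ (b : ℝ) ^ 2 := one_le_pow₀ hb
  unfold Mb
  refine ⟨?_, ?_, ?_⟩ <;> nlinarith

/-- the analytic hypotheses -/
structure Hy (Ω : Set E3) (P : Par) (f : E3 → E3) (τ : Fin P.N → ℝ) (β d : ℝ) : Prop where
  ok : P.Ok Ω
  kuhn : KUHN
  pos : 0 < β
  est : ∀ j, 0 ≤ τ j ∧ τ j * (80 * ((P.T j).b : ℝ) ^ 2) ≤ 1 ∧ ∀ x ∈ P.K j, ∀ y ∈ P.K j,
    dist x y ≤ P.η → ‖f y - f x - (P.T j).A (y - x)‖ ≤ τ j * ‖y - x‖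
  md : ∀ j, ∀ x ∈ P.U j, ∀ y ∈ Ω, dist (f x) (f y) ≤ 20 * β → dist x y ≤ d
  par : ∀ j, 10 * (P.T j).b * P.m j * d ≤ P.η ∧ Mb (P.T j).b * P.ρ j ≤ β

variable {Ω : Set E3} {P : Par} {f : E3 → E3} {τ : Fin P.N → ℝ} {β d : ℝ} {j : Fin P.N}
  {x y : E3}

theorem Hy.small (H : Hy Ω P f τ β d) (j : Fin P.N) :
    100 * (((P.T j).b : ℝ) ^ 2 * P.ρ j) ≤ β ∧ P.ρ j ≤ ((P.T j).b : ℝ) ^ 2 * P.ρ j := by
  have h1 := rho_pos H.ok j
  refine ⟨le_trans ?_ (H.par j).2, le_mul_of_one_le_left h1.le (one_le_pow₀ (b_one P j))⟩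
  rw [← mul_assoc]
  exact mul_le_mul_of_nonneg_right (le_Mb (b_one P j)).1 h1.le

theorem Hy.close (H : Hy Ω P f τ β d) (hx : x ∈ P.U j) (hy : y ∈ Ω)
    (h : dist (f x) (f y) ≤ 20 * β) : dist x y ≤ P.η ∧
    ‖P.nu j y - P.nu j x‖ ≤ (P.T j).b * P.m j * d / P.η ∧
    (P.T j).b * P.m j * d / P.η ≤ 1 / 10 := by
  have h1 := H.md j x hx y hy h
  have h2 := (H.par j).1
  have h3 := eta_pos P
  have h4 := b_one P j
  have h5 := m_one H.ok j
  have h6 := dist_nonneg.trans h1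
  refine ⟨h1.trans ?_, (nu_le H.ok y x).trans ?_, ?_⟩
  · nlinarith [mul_le_mul h4 h5 zero_le_one (by positivity)]
  · rw [← dist_eq_norm, dist_comm]
    gcongr
  · rw [div_le_iff₀ h3]
    linarith

theorem Hy.flat (H : Hy Ω P f τ β d) (hx : x ∈ P.Fine j) (hy : y ∈ P.Fine j)
    (h : dist (f x) (f y) ≤ 20 * β) : dist x y ≤ P.η ∧ Flat P j x y := by
  obtain ⟨h1, h2, h3⟩ := H.close (fine_U H.ok hx) (U_sub H.ok (fine_U H.ok hy)) h
  exact ⟨h1, (flat_of_near hy hx (by linarith)).symm⟩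

theorem Hy.pair (H : Hy Ω P f τ β d) (hx : x ∈ P.K j) (hy : y ∈ P.K j) (h : dist x y ≤ P.η)
    (hf : Flat P j x y) : ‖f y - f x - (P.T j).A (y - x)‖ ≤
      τ j * ((P.T j).b * P.ρ j) * ‖zt P j y - zt P j x‖ := by
  rw [mul_assoc]
  exact ((H.est j).2.2 x hx y hy h).trans
    (mul_le_mul_of_nonneg_left (hf.symm.norm_le H.ok) (H.est j).1)

/-- two-sided bounds from an approximate linear estimate -/
theorem Hy.two (H : Hy Ω P f τ β d) (hf : Flat P j x y) {w : E3}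
    (h : ‖w - (P.T j).A (x - y)‖ ≤ 40 * (τ j * ((P.T j).b * P.ρ j) * ‖zt P j x - zt P j y‖)) :
    P.ρ j * ‖zt P j x - zt P j y‖ ≤ 2 * (P.T j).b * ‖w‖ ∧
      ‖w‖ ≤ 2 * (((P.T j).b : ℝ) ^ 2 * P.ρ j) * ‖zt P j x - zt P j y‖ := by
  have h1 := hf.low H.ok
  have h2 := (norm_A (P.T j) (x - y)).trans
    (mul_le_mul_of_nonneg_left (hf.norm_le H.ok) (Nat.cast_nonneg _))
  have h3 := (H.est j).2.1
  have h4 := b_one P j
  have h5 := mul_nonneg (rho_pos H.ok j).le (norm_nonneg (zt P j x - zt P j y))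
  have h6 := norm_le_norm_add_norm_sub' w ((P.T j).A (x - y))
  have h7 := norm_le_norm_add_norm_sub w ((P.T j).A (x - y))
  have h8 := norm_nonneg (w - (P.T j).A (x - y))
  simp only [mul_assoc] at h h2 ⊢
  generalize P.ρ j * ‖zt P j x - zt P j y‖ = u at *
  generalize ‖w - (P.T j).A (x - y)‖ = a at *
  generalize ((P.T j).b : ℝ) = b at *
  have h9 : 2 * (b * a) ≤ u := by
    nlinarith [mul_le_mul_of_nonneg_left h (zero_le_one.trans h4),
      mul_le_mul_of_nonneg_right h3 h5]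
  have h10 : u ≤ b ^ 2 * u := le_mul_of_one_le_left h5 (one_le_pow₀ h4)
  constructor
  · nlinarith [mul_le_mul_of_nonneg_left h7 (zero_le_one.trans h4)]
  · nlinarith [mul_le_mul_of_nonneg_right h4 h8]

theorem Hy.two' (H : Hy Ω P f τ β d) (hx : x ∈ P.K j) (hy : y ∈ P.K j) (h : dist x y ≤ P.η)
    (hf : Flat P j x y) : P.ρ j * ‖zt P j y - zt P j x‖ ≤ 2 * (P.T j).b * ‖f y - f x‖ ∧
      ‖f y - f x‖ ≤ 2 * (((P.T j).b : ℝ) ^ 2 * P.ρ j) * ‖zt P j y - zt P j x‖ := by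
  have h1 := H.pair hx hy h hf
  exact H.two hf.symm (by linarith [(norm_nonneg _).trans h1])

/-- a fine simplex with vertices in the compact set and its affine interpolation -/
structure Kc (P : Par) (j : Fin P.N) (f : E3 → E3) (t : Finset E3) (C : Set E3)
    (A : E3 →ᵃ[ℝ] E3) : Prop extends Rep P j t C where
  K : ∀ v ∈ t, v ∈ P.K j
  eq : ∀ v ∈ t, A v = f v
  sc : (P.T j).b * P.ρ j ≤ P.η

variable {t t' : Finset E3} {C C' : Set E3} {A A' : E3 →ᵃ[ℝ] E3}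

theorem Kc.val (h : Kc P j f t C A) (hx : x ∈ C) :
    A x = ∑ v ∈ t, hat (zt P j x - zt P j v) • f v := by
  have h1 := affine_sum A t (h.sum1 x hx)
  rw [h.sumv x hx] at h1
  rw [h1]
  exact Finset.sum_congr rfl fun v hv => by rw [h.eq v hv]

theorem Kc.dist_le (H : Hy Ω P f τ β d) (h : Kc P j f t C A) (hx : x ∈ C) (hy : y ∈ C) :
    dist x y ≤ P.η := by
  have h1 := rho_pos H.ok j
  rw [dist_eq_norm]
  exact ((h.flat x hx y hy).norm_le H.ok).trans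
    ((mul_le_of_le_one_right (by positivity) (h.near x hx y hy)).trans h.sc)

theorem Kc.img (H : Hy Ω P f τ β d) (h : Kc P j f t C A) (hx : x ∈ C) {v : E3} (hv : v ∈ t) :
    dist (A x) (f v) ≤ 2 * (((P.T j).b : ℝ) ^ 2 * P.ρ j) := by
  have h1 := rho_pos H.ok j
  rw [h.val hx]
  refine (convex_closedBall (f v) _).sum_mem (fun w _ => (hat_mem _).1) (h.sum1 x hx)
    fun w hw => mem_closedBall_iff_norm.2 ?_
  exact (H.two' (h.K v hv) (h.K w hw) (h.dist_le H (h.sub hv) (h.sub hw))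
    (h.flat _ (h.sub hv) _ (h.sub hw))).2.trans
    (mul_le_of_le_one_right (by positivity) (h.near _ (h.sub hw) _ (h.sub hv)))

theorem Kc.val' (h : Kc P j f t C A) (hx : x ∈ C) {T : Finset E3} (hT : t ⊆ T)
    (hI : ∀ v ∈ T, Int3 (zt P j v)) (c : E3) :
    ∑ v ∈ T, hat (zt P j x - zt P j v) • (f v - (P.T j).A v - c) = A x - (P.T j).A x - c := by
  rw [← Finset.sum_subset hT fun v hv h1 => by rw [h.zero x hx v (hI v hv) h1, zero_smul]]
  simp only [smul_sub, Finset.sum_sub_distrib, ← Finset.sum_smul, ← map_smul, ← map_sum]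
  rw [h.sum1 x hx, h.sumv x hx, h.val hx, one_smul]

theorem key (H : Hy Ω P f τ β d) (h : Kc P j f t C A) (h' : Kc P j f t' C' A') (hx : x ∈ C)
    (hy : y ∈ C') (hd : ∀ v ∈ t, ∀ w ∈ t', dist v w ≤ P.η ∧ Flat P j v w) :
    ‖A x - A' y - (P.T j).A (x - y)‖ ≤
      40 * (τ j * ((P.T j).b * P.ρ j) * ‖zt P j x - zt P j y‖) := by
  classical
  obtain ⟨v₀, h0⟩ := h.exists_mem hx
  have hI : ∀ v ∈ t ∪ t', Int3 (zt P j v) := fun v hv =>
    (Finset.mem_union.1 hv).elim (fun h1 => ((h.mem v).1 h1).2) fun h1 => ((h'.mem v).1 h1).2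
  have e1 := h.val' hx Finset.subset_union_left hI (f v₀ - (P.T j).A v₀)
  have e2 := h'.val' hy Finset.subset_union_right hI (f v₀ - (P.T j).A v₀)
  have e3 : A x - A' y - (P.T j).A (x - y) = ∑ v ∈ t ∪ t', (hat (zt P j x - zt P j v) -
      hat (zt P j y - zt P j v)) • (f v - (P.T j).A v - (f v₀ - (P.T j).A v₀)) := by
    simp only [sub_smul, Finset.sum_sub_distrib, e1, e2, map_sub]
    abel
  have h1 : 0 ≤ τ j * ((P.T j).b * P.ρ j) :=
    mul_nonneg (H.est j).1 (mul_nonneg (Nat.cast_nonneg _) (rho_pos H.ok j).le)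
  have h2 := norm_nonneg (zt P j x - zt P j y)
  rw [e3]
  refine (norm_sum_le _ _).trans ((Finset.sum_le_card_nsmul _ _
    (5 * (τ j * ((P.T j).b * P.ρ j) * ‖zt P j x - zt P j y‖)) fun v hv => ?_).trans ?_)
  · have h3 : (dist v₀ v ≤ P.η ∧ Flat P j v₀ v) ∧ v ∈ P.K j ∧
        ‖zt P j v - zt P j v₀‖ ≤ 2 + ‖zt P j x - zt P j y‖ := by
      rcases Finset.mem_union.1 hv with h4 | h4
      · exact ⟨⟨h.dist_le H (h.sub h0) (h.sub h4), h.flat _ (h.sub h0) _ (h.sub h4)⟩, h.K v h4,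
          by linarith [h.near _ (h.sub h4) _ (h.sub h0)]⟩
      · refine ⟨hd v₀ h0 v h4, h'.K v h4, ?_⟩
        have h5 := h'.near _ (h'.sub h4) _ hy
        have h6 := h.near _ hx _ (h.sub h0)
        have h7 := dist_triangle4 (zt P j v) (zt P j y) (zt P j x) (zt P j v₀)
        simp only [dist_eq_norm] at h7
        rw [norm_sub_rev (zt P j y)] at h7
        linarith
    have h4 := (H.pair (h.K v₀ h0) h3.2.1 h3.1.1 h3.1.2).trans
      (mul_le_mul_of_nonneg_left h3.2.2 h1)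
    have h5 := H.kuhn.1.dist_le_mul (zt P j x - zt P j v) (zt P j y - zt P j v)
    rw [dist_sub_right, dist_eq_norm, dist_eq_norm, NNReal.coe_ofNat] at h5
    have h6 : ‖hat (zt P j x - zt P j v) - hat (zt P j y - zt P j v)‖ ≤ 1 := by
      have := hat_mem (zt P j x - zt P j v)
      have := hat_mem (zt P j y - zt P j v)
      exact abs_le.2 ⟨by linarith, by linarith⟩
    rw [norm_smul, show f v - (P.T j).A v - (f v₀ - (P.T j).A v₀) =
      f v - f v₀ - (P.T j).A (v - v₀) by rw [map_sub]; abel]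
    refine (mul_le_mul_of_nonneg_left h4 (norm_nonneg _)).trans ?_
    nlinarith [mul_le_mul_of_nonneg_left h5 h1, mul_le_mul_of_nonneg_left h6 (mul_nonneg h1 h2)]
  · have h3 : ((t ∪ t').card : ℝ) ≤ 8 := by
      exact_mod_cast (Finset.card_union_le _ _).trans (Nat.add_le_add h.card h'.card)
    rw [nsmul_eq_mul]
    nlinarith [mul_nonneg h1 h2]

theorem low (H : Hy Ω P f τ β d) (h : Kc P j f t C A) (h' : Kc P j f t' C' A') (hx : x ∈ C)
    (hy : y ∈ C') (hd : dist (A x) (A' y) ≤ 10 * β) : Flat P j x y ∧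
    P.ρ j * ‖zt P j x - zt P j y‖ ≤ 2 * (P.T j).b * dist (A x) (A' y) := by
  have h1 : ∀ v ∈ t, ∀ w ∈ t', dist v w ≤ P.η ∧ Flat P j v w := fun v hv w hw => by
    refine H.flat (h.fine (h.sub hv)) (h'.fine (h'.sub hw)) ?_
    have h2 := dist_triangle4 (f v) (A x) (A' y) (f w)
    rw [dist_comm (f v) (A x)] at h2
    linarith [h.img H hx hv, h'.img H hy hw, (H.small j).1, H.pos]
  obtain ⟨v, hv⟩ := h.exists_mem hx
  obtain ⟨w, hw⟩ := h'.exists_mem hy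
  have h2 := ((h.flat x hx v (h.sub hv)).trans (h1 v hv w hw).2).trans
    (h'.flat w (h'.sub hw) y hy)
  rw [dist_eq_norm]
  exact ⟨h2, (H.two h2 (key H h h' hx hy h1)).1⟩

theorem low_eq (H : Hy Ω P f τ β d) (h : Kc P j f t C A) (h' : Kc P j f t' C' A') (hx : x ∈ C)
    (hy : y ∈ C') (hd : A x = A' y) : x = y := by
  obtain ⟨h1, h2⟩ := low H h h' hx hy (by rw [hd, dist_self]; linarith [H.pos])
  rw [hd, dist_self, mul_zero] at h2
  have h3 := h1.norm_le H.ok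
  rw [mul_assoc] at h3
  exact sub_eq_zero.1 (norm_le_zero_iff.1
    (h3.trans (mul_nonpos_of_nonneg_of_nonpos (Nat.cast_nonneg _) h2)))

theorem low_hat (H : Hy Ω P f τ β d) (h : Kc P j f t C A) (h' : Kc P j f t' C' A') (hx : x ∈ C)
    (hy : y ∈ C') (hd : dist (A x) (A' y) ≤ 10 * β) {w : E3} (hw : w ∈ t) (hw' : w ∉ C') :
    P.ρ j * hat (zt P j x - zt P j w) ≤ 4 * (P.T j).b * dist (A x) (A' y) := by
  have h1 := (low H h h' hx hy hd).2
  have h2 := H.kuhn.1.dist_le_mul (zt P j x - zt P j w) (zt P j y - zt P j w)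
  rw [dist_sub_right, h'.zero y hy w ((h.mem w).1 hw).2 fun h3 => hw' (h'.sub h3),
    dist_zero_right, dist_eq_norm, NNReal.coe_ofNat, Real.norm_of_nonneg (hat_mem _).1] at h2
  nlinarith [mul_le_mul_of_nonneg_left h2 (rho_pos H.ok j).le]

theorem same_type (H : Hy Ω P f τ β d) {j' : Fin P.N} (h : Kc P j f t C A)
    (h' : Kc P j' f t' C' A') (hx : x ∈ C) (hy : y ∈ C') (hd : dist (A x) (A' y) ≤ 10 * β) :
    j = j' := by
  by_contra hne
  obtain ⟨v, hv⟩ := h.exists_mem hx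
  obtain ⟨w, hw⟩ := h'.exists_mem hy
  have h1 := H.ok.sep j j' hne v (h.K v hv) w (h'.K w hw)
  have h2 := dist_triangle4 (f v) (A x) (A' y) (f w)
  rw [dist_comm (f v) (A x)] at h2
  have h3 := (H.close (K_U (h.K v hv)) (U_sub H.ok (K_U (h'.K w hw))) (by
    linarith [h.img H hx hv, h'.img H hy hw, (H.small j).1, (H.small j').1, H.pos])).1
  nlinarith [eta_pos P, b_one P j, b_one P j']

end Gd

end P073
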