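import Vale.Agent.P073Z.GOOD.Gen

/-!
# Normalised coordinates and the finely subdivided pieces
-/

open Set Metric Topology Filter MeasureTheory
open scoped ENNReal NNReal

namespace P073

namespace Gd

variable {Ω : Set E3} {P : Par} {j : Fin P.N} {x y z : E3}

/-- fine coordinates -/
noncomputable def zt (P : Par) (j : Fin P.N) (x : E3) : E3 := (P.n : ℝ) • P.nu j x

/-- equal coordinates in the kernel directions -/
def Flat (P : Par) (j : Fin P.N) (x y : E3) : Prop := ∀ i ∈ (P.T j).I, P.nu j x i = P.nu j y i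

theorem Flat.symm (h : Flat P j x y) : Flat P j y x := fun i hi => (h i hi).symm

theorem Flat.trans (h : Flat P j x y) (h' : Flat P j y z) : Flat P j x z :=
  fun i hi => (h i hi).trans (h' i hi)

theorem eta_pos (P : Par) : 0 < P.η := by
  unfold Par.η
  positivity

theorem b_one (P : Par) (j : Fin P.N) : (1 : ℝ) ≤ (P.T j).b := Nat.one_le_cast.2 (P.T j).b_pos

theorem m_one (h : P.Ok Ω) (j : Fin P.N) : (1 : ℝ) ≤ P.m j := Nat.one_le_cast.2 (h.m_pos j)

theorem n_one (h : P.Ok Ω) : (1 : ℝ) ≤ P.n := Nat.one_le_cast.2 h.n_pos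

theorem rho_pos (h : P.Ok Ω) (j : Fin P.N) : 0 < P.ρ j := by
  have := eta_pos P
  have := m_one h j
  have := n_one h
  unfold Par.ρ
  positivity

theorem nu_sub (x y : E3) (i : Fin 3) : P.nu j x i - P.nu j y i =
    (P.T j).L.symm (x - y) i / (if (i : ℕ) < (P.T j).r then P.η / P.m j else P.η) := by
  simp only [Par.nu]
  rw [← sub_div, ← Pi.sub_apply, ← map_sub, sub_sub_sub_cancel_right]

theorem norm_L (T : Ty) (u : E3) : ‖T.L u‖ ≤ T.b * ‖u‖ :=
  (T.L : E3 →L[ℝ] E3).le_of_opNorm_le T.normL u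

theorem norm_Li (T : Ty) (u : E3) : ‖T.L.symm u‖ ≤ T.b * ‖u‖ :=
  (T.L.symm : E3 →L[ℝ] E3).le_of_opNorm_le T.normLi u

theorem norm_A (T : Ty) (u : E3) : ‖T.A u‖ ≤ T.b * ‖u‖ := T.A.le_of_opNorm_le T.normA u

theorem nu_le (h : P.Ok Ω) (x y : E3) :
    ‖P.nu j x - P.nu j y‖ ≤ (P.T j).b * P.m j * ‖x - y‖ / P.η := by
  have h1 := eta_pos P
  have h2 := m_one h j
  refine (pi_norm_le_iff_of_nonneg (by positivity)).2 fun i => ?_
  have h3 := (norm_le_pi_norm _ i).trans (norm_Li (P.T j) (x - y))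
  have h4 : P.η / P.m j ≤ (if (i : ℕ) < (P.T j).r then P.η / P.m j else P.η) := by
    split_ifs
    exacts [le_rfl, div_le_self h1.le h2]
  rw [Pi.sub_apply, nu_sub, norm_div, Real.norm_of_nonneg ((by positivity : _ ≤ _).trans h4)]
  refine (div_le_div₀ (by positivity) h3 (by positivity) h4).trans_eq ?_
  field_simp

theorem le_nu (h : P.Ok Ω) (x y : E3) :
    ‖x - y‖ ≤ (P.T j).b * P.η * ‖P.nu j x - P.nu j y‖ := by
  have h1 := eta_pos P
  have h2 := m_one h j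
  have h3 : ‖(P.T j).L.symm (x - y)‖ ≤ P.η * ‖P.nu j x - P.nu j y‖ := by
    refine (pi_norm_le_iff_of_nonneg (by positivity)).2 fun i => ?_
    have h4 := norm_le_pi_norm (P.nu j x - P.nu j y) i
    have h5 : 0 < (if (i : ℕ) < (P.T j).r then P.η / P.m j else P.η) ∧
        (if (i : ℕ) < (P.T j).r then P.η / P.m j else P.η) ≤ P.η := by
      split_ifs
      exacts [⟨by positivity, div_le_self h1.le h2⟩, ⟨h1, le_rfl⟩]
    rw [Pi.sub_apply, nu_sub, norm_div, Real.norm_of_nonneg h5.1.le, div_le_iff₀ h5.1,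
      mul_comm] at h4
    exact h4.trans (by gcongr; exact h5.2)
  have h4 := norm_L (P.T j) ((P.T j).L.symm (x - y))
  rw [ContinuousLinearEquiv.apply_symm_apply] at h4
  rw [mul_assoc]
  exact h4.trans (by gcongr)

theorem mem_I {T : Ty} {i : Fin 3} : i ∈ T.I ↔ T.r ≤ (i : ℕ) := by simp [Ty.I]

theorem Flat.eq (h : P.Ok Ω) (hf : Flat P j x y) :
    x - y = (P.T j).L (P.ρ j • (zt P j x - zt P j y)) := by
  have h1 := eta_pos P
  have h2 := m_one h j
  have h3 := n_one h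
  rw [← ContinuousLinearEquiv.symm_apply_eq]
  funext i
  have h4 := nu_sub (j := j) x y i
  simp only [zt, Par.ρ, Pi.smul_apply, Pi.sub_apply, smul_eq_mul, ← mul_sub]
  split_ifs at h4 with h5
  · rw [h4]
    field_simp
  · rw [hf i (mem_I.2 (not_lt.1 h5)), sub_self] at h4 ⊢
    rw [mul_zero, mul_zero]
    exact (div_eq_zero_iff.1 h4.symm).resolve_right h1.ne'

theorem Flat.norm_le (h : P.Ok Ω) (hf : Flat P j x y) :
    ‖x - y‖ ≤ (P.T j).b * P.ρ j * ‖zt P j x - zt P j y‖ := by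
  rw [hf.eq h, mul_assoc]
  refine (norm_L _ _).trans_eq ?_
  rw [norm_smul, Real.norm_of_nonneg (rho_pos h j).le]

theorem Flat.le_norm (h : P.Ok Ω) (hf : Flat P j x y) :
    P.ρ j * ‖zt P j x - zt P j y‖ ≤ (P.T j).b * ‖x - y‖ := by
  have h1 := norm_Li (P.T j) (x - y)
  nth_rewrite 1 [hf.eq h] at h1
  rwa [ContinuousLinearEquiv.symm_apply_apply, norm_smul,
    Real.norm_of_nonneg (rho_pos h j).le] at h1

theorem Flat.low (h : P.Ok Ω) (hf : Flat P j x y) :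
    P.ρ j * ‖zt P j x - zt P j y‖ ≤ (P.T j).b * ‖(P.T j).A (x - y)‖ := by
  have h1 := (P.T j).low (P.ρ j • (zt P j x - zt P j y)) fun i hi => by
    simp [zt, hf i (mem_I.2 hi)]
  rwa [← hf.eq h, norm_smul, Real.norm_of_nonneg (rho_pos h j).le] at h1

theorem ucube_near {c : Fin 3 → ℤ} {ξ ξ' : E3} (h : ξ ∈ ucube c) (h' : ξ' ∈ ucube c) :
    ‖ξ - ξ'‖ ≤ 1 := by
  refine (pi_norm_le_iff_of_nonneg zero_le_one).2 fun i => abs_le.2 ⟨?_, ?_⟩ <;>
  · have h1 := h.1 i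
    have h2 := h.2 i
    have h3 := h'.1 i
    have h4 := h'.2 i
    simp only [Pi.sub_apply] at *
    linarith

theorem fine_near (h : P.Ok Ω) (hx : x ∈ P.Fine j) :
    ∃ y ∈ P.K j, dist x y ≤ (P.T j).b * P.η := by
  obtain ⟨c, ⟨y, hy, h1⟩, h2⟩ := hx
  refine ⟨y, hy, ?_⟩
  have h3 := eta_pos P
  rw [dist_eq_norm]
  exact (le_nu h x y).trans (mul_le_of_le_one_right (by positivity) (ucube_near h2.1 h1))

theorem mem_U (hy : y ∈ P.K j) (h : dist x y ≤ 10 * (P.T j).b * P.η) : x ∈ P.U j := by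
  have h1 := eta_pos P
  have h2 := b_one P j
  exact mem_thickening_iff.2 ⟨y, hy, by nlinarith⟩

theorem K_U (hy : y ∈ P.K j) : y ∈ P.U j := by
  have h1 := eta_pos P
  exact mem_U hy (by rw [dist_self]; positivity)

theorem fine_U (h : P.Ok Ω) (hx : x ∈ P.Fine j) : x ∈ P.U j := by
  obtain ⟨y, hy, h1⟩ := fine_near h hx
  have h2 := eta_pos P
  have h3 := b_one P j
  exact mem_U hy (by nlinarith)

theorem U_cth (P : Par) (j : Fin P.N) :
    P.U j ⊆ cthickening (100 * (P.T j).b * P.η) (P.K j) := by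
  have h2 := eta_pos P
  have h3 := b_one P j
  exact (thickening_subset_cthickening _ _).trans (cthickening_mono (by nlinarith) _)

theorem U_sub (h : P.Ok Ω) (hx : x ∈ P.U j) : x ∈ Ω := (h.big j x (U_cth P j hx)).1

theorem fine_unique (h : P.Ok Ω) {j' : Fin P.N} (hx : x ∈ P.Fine j) (hx' : x ∈ P.Fine j') :
    j = j' := by
  by_contra hne
  obtain ⟨y, hy, h1⟩ := fine_near h hx
  obtain ⟨y', hy', h2⟩ := fine_near h hx'
  have h3 := h.sep j j' hne y hy y' hy'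
  have h4 := dist_triangle_left y y' x
  have h5 := eta_pos P
  have h6 := b_one P j
  have h7 := b_one P j'
  nlinarith

theorem flat_of_near (hx : x ∈ P.Fine j) (hy : y ∈ P.Fine j)
    (h : ‖P.nu j x - P.nu j y‖ < 1) : Flat P j x y := by
  obtain ⟨c, -, -, h1⟩ := hx
  obtain ⟨c', -, -, h2⟩ := hy
  intro i hi
  have h3 := (norm_le_pi_norm _ i).trans_lt h
  rw [Pi.sub_apply, h1 i hi, h2 i hi, Real.norm_eq_abs, ← Int.cast_sub, ← Int.cast_abs,
    ← Int.cast_one, Int.cast_lt, Int.abs_lt_one_iff, sub_eq_zero] at h3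
  rw [h1 i hi, h2 i hi, h3]

theorem floor_buf {ξ ξ' : E3} {c : Fin 3 → ℤ} (hc : c ∈ P.Inner j) (h : ξ ∈ ucube c)
    (h' : ‖ξ' - ξ‖ ≤ 1) : (fun i => ⌊ξ' i⌋) ∈ P.Buf j ∧ ξ' ∈ ucube fun i => ⌊ξ' i⌋ := by
  have h1 : ξ' ∈ ucube fun i => ⌊ξ' i⌋ :=
    ⟨fun i => Int.floor_le _, fun i => (Int.lt_floor_add_one _).le⟩
  refine ⟨fun u hu => mem_cthickening_of_dist_le u ξ 3 _ (mem_biUnion hc h) ?_, h1⟩
  have h2 := ucube_near hu h1
  have h3 := norm_sub_le_norm_sub_add_norm_sub u ξ' ξ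
  rw [dist_eq_norm]
  linarith

end Gd

end P073
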